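import Mathlib
import Vale.Agent.Lib.P328.helper74.NegCorrStep

/-!
P328: functions on `ι → ℕ` whose second-difference matrices have at most one positive
eigenvalue, and their stability under transfers along `e_b - e_a`.

* `OnePos A` : reverse Cauchy-Schwarz at every vector of positive form value.
* `onePos_of_ker`, `onePos_of_rcs` : criteria for `OnePos`.
* `LorF F` : `F` is positive and every second-difference matrix `hess F γ` is `OnePos`.
* `lorF_prod` : products of positive log-concave sequences.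
* `lorF_transfer` : `LorF` is preserved by prefix sums along a line `e_b - e_a`.
-/

namespace Vale.Agent.Lib.P328.NCq

open Finset
open Vale.Agent.Lib.P328.helper74

variable {ι : Type*} [Fintype ι]

/-- The bilinear form of a matrix. -/
def bil (A : ι → ι → ℝ) (x y : ι → ℝ) : ℝ := ∑ a, ∑ b, x a * A a b * y b

/-- Reverse Cauchy-Schwarz at every vector of positive form value (for a symmetric matrix:
at most one positive eigenvalue). -/
def OnePos (A : ι → ι → ℝ) : Prop :=
  ∀ x u : ι → ℝ, 0 < bil A x x → bil A x x * bil A u u ≤ bil A x u ^ 2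

theorem bil_symm {A : ι → ι → ℝ} (hsym : ∀ a b, A a b = A b a) (x y : ι → ℝ) :
    bil A x y = bil A y x := by
  unfold bil
  rw [Finset.sum_comm]
  refine Finset.sum_congr rfl (fun a _ => Finset.sum_congr rfl (fun b _ => ?_))
  rw [hsym b a]
  ring

theorem bil_comb (A : ι → ι → ℝ) (x u : ι → ℝ) (s t s' t' : ℝ) :
    bil A (fun a => s * x a + t * u a) (fun a => s' * x a + t' * u a)
      = s * s' * bil A x x + s * t' * bil A x u + t * s' * bil A u x + t * t' * bil A u u := by
  simp only [bil, Finset.mul_sum, ← Finset.sum_add_distrib]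
  refine Finset.sum_congr rfl (fun a _ => Finset.sum_congr rfl (fun b _ => ?_))
  ring

/-- A symmetric form that is negative semidefinite on a hyperplane is `OnePos`. -/
theorem onePos_of_ker {A : ι → ι → ℝ} (hsym : ∀ a b, A a b = A b a) (φ : (ι → ℝ) → ℝ)
    (hφ : ∀ (x u : ι → ℝ) (s t : ℝ), φ (fun a => s * x a + t * u a) = s * φ x + t * φ u)
    (h : ∀ p : ι → ℝ, φ p = 0 → bil A p p ≤ 0) : OnePos A := by
  intro x u hx
  by_cases hξ : φ x = 0
  · exact absurd (h x hξ) (not_le.mpr hx)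
  · have hp : φ (fun a => φ u * x a + (-φ x) * u a) = 0 := by
      rw [hφ]; ring
    have h1 := h _ hp
    rw [bil_comb, bil_symm hsym u x] at h1
    have hξ2 : 0 < φ x ^ 2 := by positivity
    have key : φ x ^ 2 * (bil A x x * bil A u u - bil A x u ^ 2) ≤ 0 := by
      have h2 : 0 ≤ (φ u * bil A x x - φ x * bil A x u) ^ 2 := sq_nonneg _
      nlinarith [mul_le_mul_of_nonneg_left h1 hx.le]
    by_contra hcon
    push Not at hcon
    have : 0 < φ x ^ 2 * (bil A x x * bil A u u - bil A x u ^ 2) :=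
      mul_pos hξ2 (by linarith)
    linarith

/-- Reverse Cauchy-Schwarz at one vector of positive form value gives `OnePos`. -/
theorem onePos_of_rcs {A : ι → ι → ℝ} (hsym : ∀ a b, A a b = A b a) (x0 : ι → ℝ)
    (hx0 : 0 < bil A x0 x0)
    (h : ∀ u : ι → ℝ, bil A x0 x0 * bil A u u ≤ bil A x0 u ^ 2) : OnePos A := by
  refine onePos_of_ker hsym (fun p => bil A x0 p) ?_ ?_
  · intro x u s t
    simp only [bil, Finset.mul_sum, ← Finset.sum_add_distrib]
    refine Finset.sum_congr rfl (fun a _ => Finset.sum_congr rfl (fun b _ => ?_))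
    ring
  · intro p hp
    have h1 := h p
    rw [hp] at h1
    have : bil A x0 x0 * bil A p p ≤ 0 := by simpa using h1
    by_contra hcon
    push Not at hcon
    have := mul_pos hx0 hcon
    linarith

variable [DecidableEq ι]

/-- The second-difference matrix of `F` at `γ`. -/
def hess (F : (ι → ℕ) → ℝ) (γ : ι → ℕ) (a b : ι) : ℝ :=
  F (γ + Pi.single a 1 + Pi.single b 1)

theorem hess_symm (F : (ι → ℕ) → ℝ) (γ : ι → ℕ) (a b : ι) : hess F γ a b = hess F γ b a := by
  unfold hess
  rw [add_right_comm]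

/-- `F` is positive and all its second-difference matrices are `OnePos`. -/
def LorF (F : (ι → ℕ) → ℝ) : Prop := (∀ p, 0 < F p) ∧ ∀ γ, OnePos (hess F γ)

theorem prod_update_mul (φ : ι → ℕ → ℝ) (p : ι → ℕ) (a : ι) (v : ℕ) :
    (∏ c, φ c (Function.update p a v c)) * φ a (p a) = (∏ c, φ c (p c)) * φ a v := by
  rw [← Finset.mul_prod_erase univ _ (mem_univ a),
    ← Finset.mul_prod_erase univ (fun c => φ c (p c)) (mem_univ a)]
  have : ∏ c ∈ univ.erase a, φ c (Function.update p a v c) = ∏ c ∈ univ.erase a, φ c (p c) := by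
    refine Finset.prod_congr rfl (fun c hc => ?_)
    rw [Function.update_of_ne (Finset.ne_of_mem_erase hc)]
  rw [this, Function.update_self]
  ring

/-- Base case: products of positive log-concave sequences. -/
theorem lorF_prod (φ : ι → ℕ → ℝ) (hpos : ∀ a k, 0 < φ a k)
    (hlc : ∀ a k, φ a k * φ a (k + 2) ≤ φ a (k + 1) ^ 2) :
    LorF (fun p => ∏ a, φ a (p a)) := by
  refine ⟨fun p => Finset.prod_pos (fun a _ => hpos a _), fun γ => ?_⟩
  set K : ℝ := ∏ c, φ c (γ c) with hK
  have hKpos : 0 < K := Finset.prod_pos (fun a _ => hpos a _)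
  set u : ι → ℝ := fun a => φ a (γ a + 1) / φ a (γ a) with hu
  set d : ι → ℝ := fun a => u a ^ 2 - φ a (γ a + 2) / φ a (γ a) with hd
  have hd0 : ∀ a, 0 ≤ d a := by
    intro a
    have h0 := hpos a (γ a)
    have h1 := hlc a (γ a)
    simp only [hd, hu]
    rw [div_pow, sub_nonneg, div_le_div_iff₀ h0 (by positivity)]
    nlinarith
  have hA : ∀ a b, hess (fun p => ∏ a, φ a (p a)) γ a b
      = K * (u a * u b - if a = b then d a else 0) := by
    intro a b
    have h0a := hpos a (γ a)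
    have h0b := hpos b (γ b)
    unfold hess
    by_cases hab : a = b
    · subst hab
      have hp : γ + Pi.single a 1 + Pi.single a 1 = Function.update γ a (γ a + 2) := by
        funext c
        by_cases hc : c = a
        · subst hc; simp
        · simp [hc]
      have h1 := prod_update_mul φ γ a (γ a + 2)
      rw [← hK] at h1
      have hP : ∏ c, φ c (Function.update γ a (γ a + 2) c)
          = K * φ a (γ a + 2) / φ a (γ a) := by
        rw [eq_div_iff h0a.ne']
        exact h1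
      rw [hp, if_pos rfl]
      beta_reduce
      rw [hP]
      simp only [hd, hu]
      ring
    · have hp : γ + Pi.single a 1 + Pi.single b 1
          = Function.update (Function.update γ a (γ a + 1)) b (γ b + 1) := by
        funext c
        by_cases hcb : c = b
        · subst hcb
          have : c ≠ a := fun h => hab h.symm
          simp [this]
        · by_cases hca : c = a
          · subst hca; simp [hcb]
          · simp [hcb, hca]
      have h1 := prod_update_mul φ (Function.update γ a (γ a + 1)) b (γ b + 1)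
      have h2 := prod_update_mul φ γ a (γ a + 1)
      rw [Function.update_of_ne (fun h => hab h.symm)] at h1
      rw [← hK] at h2
      have hP1 : ∏ c, φ c (Function.update γ a (γ a + 1) c)
          = K * φ a (γ a + 1) / φ a (γ a) := by
        rw [eq_div_iff h0a.ne']
        exact h2
      have hP2 : ∏ c, φ c (Function.update (Function.update γ a (γ a + 1)) b (γ b + 1) c)
          = K * φ a (γ a + 1) / φ a (γ a) * φ b (γ b + 1) / φ b (γ b) := by
        rw [eq_div_iff h0b.ne', h1, hP1]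
      rw [hp, if_neg hab]
      beta_reduce
      rw [hP2]
      simp only [hu]
      ring
  refine onePos_of_ker (hess_symm _ _) (fun p => ∑ a, u a * p a) ?_ ?_
  · intro x w s t
    simp only [Finset.mul_sum, ← Finset.sum_add_distrib]
    refine Finset.sum_congr rfl (fun a _ => ?_)
    ring
  · intro p hp
    have hb : bil (hess (fun p => ∏ a, φ a (p a)) γ) p p
        = K * ((∑ a, u a * p a) ^ 2 - ∑ a, d a * p a ^ 2) := by
      unfold bil
      simp only [hA]
      rw [sq, Finset.sum_mul_sum, mul_sub, Finset.mul_sum, Finset.mul_sum, ← Finset.sum_sub_distrib]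
      refine Finset.sum_congr rfl (fun a _ => ?_)
      rw [Finset.mul_sum]
      have : ∑ b, p a * (K * (u a * u b - if a = b then d a else 0)) * p b
          = ∑ b, K * (u a * p a * (u b * p b)) - ∑ b, if a = b then K * (d a * p a ^ 2) else 0 := by
        rw [← Finset.sum_sub_distrib]
        refine Finset.sum_congr rfl (fun b _ => ?_)
        by_cases hab : a = b
        · subst hab; simp; ring
        · simp [hab]; ring
      rw [this, Finset.sum_ite_eq]
      simp
    rw [hb, hp]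
    have : 0 ≤ ∑ a, d a * p a ^ 2 := Finset.sum_nonneg (fun a _ => mul_nonneg (hd0 a) (sq_nonneg _))
    nlinarith

/-- Prefix sums along `e_b - e_a`: `transfer a b F p` is the sum of `F` over the points
obtained from `p` by moving `k` units from coordinate `b` to coordinate `a`, `0 ≤ k ≤ p b`. -/
def transfer (a b : ι) (F : (ι → ℕ) → ℝ) (p : ι → ℕ) : ℝ :=
  ∑ k ∈ Finset.range (p b + 1), F (Function.update (Function.update p b (p b - k)) a (p a + k))

/-! ### The transfer step -/

theorem bil_lin3_right (A : ι → ι → ℝ) (z p1 p2 p3 : ι → ℝ) (x y w : ℝ) :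
    bil A z (fun c => x * p1 c + y * p2 c + w * p3 c)
      = x * bil A z p1 + y * bil A z p2 + w * bil A z p3 := by
  simp only [bil, Finset.mul_sum, ← Finset.sum_add_distrib]
  refine Finset.sum_congr rfl (fun a _ => Finset.sum_congr rfl (fun b _ => ?_))
  ring

theorem bil_lin3_left (A : ι → ι → ℝ) (z p1 p2 p3 : ι → ℝ) (x y w : ℝ) :
    bil A (fun c => x * p1 c + y * p2 c + w * p3 c) z
      = x * bil A p1 z + y * bil A p2 z + w * bil A p3 z := by
  simp only [bil, Finset.mul_sum, ← Finset.sum_add_distrib]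
  refine Finset.sum_congr rfl (fun a _ => Finset.sum_congr rfl (fun b _ => ?_))
  ring

/-- The indicator vector of a coordinate. -/
def ev (a : ι) : ι → ℝ := fun c => if c = a then 1 else 0

theorem bil_ev_left (A : ι → ι → ℝ) (a : ι) (y : ι → ℝ) :
    bil A (ev a) y = ∑ d, A a d * y d := by
  unfold bil ev
  rw [Finset.sum_eq_single a]
  · simp
  · intro c _ hc
    simp [hc]
  · intro h
    exact absurd (mem_univ a) h

theorem bil_ev_ev (A : ι → ι → ℝ) (a b : ι) : bil A (ev a) (ev b) = A a b := by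
  rw [bil_ev_left]
  unfold ev
  rw [Finset.sum_eq_single b]
  · simp
  · intro c _ hc
    simp [hc]
  · intro h
    exact absurd (mem_univ b) h

/-- The point with coordinate `i` at `a`, coordinate `j` at `b`, and equal to `β` elsewhere. -/
def pt (a b : ι) (β : ι → ℕ) (i j : ℕ) : ι → ℕ :=
  Function.update (Function.update β b j) a i

theorem pt_a (a b : ι) (β : ι → ℕ) (i j : ℕ) : pt a b β i j a = i := by
  simp [pt]

theorem pt_b {a b : ι} (hab : a ≠ b) (β : ι → ℕ) (i j : ℕ) : pt a b β i j b = j := by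
  unfold pt
  rw [Function.update_of_ne hab.symm, Function.update_self]

theorem pt_of_ne (a b : ι) (β : ι → ℕ) (i j : ℕ) (c : ι) (hca : c ≠ a) (hcb : c ≠ b) :
    pt a b β i j c = β c := by
  unfold pt
  rw [Function.update_of_ne hca, Function.update_of_ne hcb]

theorem eq_pt {a b : ι} (hab : a ≠ b) (p β : ι → ℕ) (i j : ℕ) (ha : p a = i) (hb : p b = j)
    (h : ∀ c, c ≠ a → c ≠ b → p c = β c) : p = pt a b β i j := by
  funext c
  by_cases hca : c = a
  · subst hca; rw [pt_a, ha]
  · by_cases hcb : c = b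
    · subst hcb; rw [pt_b hab, hb]
    · rw [pt_of_ne a b β i j c hca hcb, h c hca hcb]

theorem pt_congr {a b : ι} (hab : a ≠ b) (β β' : ι → ℕ)
    (h : ∀ c, c ≠ a → c ≠ b → β c = β' c) (i j : ℕ) : pt a b β i j = pt a b β' i j := by
  refine eq_pt hab _ _ _ _ (pt_a a b β i j) (pt_b hab β i j) ?_
  intro c hca hcb
  rw [pt_of_ne a b β i j c hca hcb, h c hca hcb]

theorem transfer_pt {a b : ι} (hab : a ≠ b) (F : (ι → ℕ) → ℝ) (β : ι → ℕ) (i j : ℕ) :
    transfer a b F (pt a b β i j) = ∑ k ∈ range (j + 1), F (pt a b β (i + k) (j - k)) := by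
  unfold transfer
  rw [pt_b hab, pt_a]
  refine Finset.sum_congr rfl (fun k _ => ?_)
  congr 1
  refine eq_pt hab _ _ _ _ ?_ ?_ ?_
  · rw [Function.update_self]
  · rw [Function.update_of_ne hab.symm, Function.update_self]
  · intro c hca hcb
    rw [Function.update_of_ne hca, Function.update_of_ne hcb, pt_of_ne a b β i j c hca hcb]

/-- The three families of values along the lines in direction `e_b - e_a` (with spectator
vector `v`). -/
def psiW (a b : ι) (Φ : (ι → ℕ) → ℝ) (γ : ι → ℕ) (i j : ℕ) : ℝ := Φ (pt a b γ i j)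

def psiL (a b : ι) (Φ : (ι → ℕ) → ℝ) (γ : ι → ℕ) (v : ι → ℝ) (i j : ℕ) : ℝ :=
  ∑ s, v s * Φ (pt a b (γ + Pi.single s 1) i j)

def psiQ (a b : ι) (Φ : (ι → ℕ) → ℝ) (γ : ι → ℕ) (v : ι → ℝ) (i j : ℕ) : ℝ :=
  ∑ s, ∑ s', v s * v s' * Φ (pt a b (γ + Pi.single s 1 + Pi.single s' 1) i j)

theorem psiW_transfer {a b : ι} (hab : a ≠ b) (F : (ι → ℕ) → ℝ) (γ : ι → ℕ) (i j : ℕ) :
    psiW a b (transfer a b F) γ i j = ∑ k ∈ range (j + 1), psiW a b F γ (i + k) (j - k) := by
  unfold psiW
  exact transfer_pt hab F γ i j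

theorem psiL_transfer {a b : ι} (hab : a ≠ b) (F : (ι → ℕ) → ℝ) (γ : ι → ℕ) (v : ι → ℝ)
    (i j : ℕ) :
    psiL a b (transfer a b F) γ v i j = ∑ k ∈ range (j + 1), psiL a b F γ v (i + k) (j - k) := by
  unfold psiL
  have h1 : ∀ s, v s * transfer a b F (pt a b (γ + Pi.single s 1) i j)
      = ∑ k ∈ range (j + 1), v s * F (pt a b (γ + Pi.single s 1) (i + k) (j - k)) :=
    fun s => by rw [transfer_pt hab, Finset.mul_sum]
  simp only [h1]
  exact Finset.sum_comm

theorem psiQ_transfer {a b : ι} (hab : a ≠ b) (F : (ι → ℕ) → ℝ) (γ : ι → ℕ) (v : ι → ℝ)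
    (i j : ℕ) :
    psiQ a b (transfer a b F) γ v i j = ∑ k ∈ range (j + 1), psiQ a b F γ v (i + k) (j - k) := by
  unfold psiQ
  have h1 : ∀ s s', v s * v s' * transfer a b F (pt a b (γ + Pi.single s 1 + Pi.single s' 1) i j)
      = ∑ k ∈ range (j + 1),
          v s * v s' * F (pt a b (γ + Pi.single s 1 + Pi.single s' 1) (i + k) (j - k)) :=
    fun s s' => by rw [transfer_pt hab, Finset.mul_sum]
  simp only [h1]
  calc (∑ s, ∑ s', ∑ k ∈ range (j + 1),
          v s * v s' * F (pt a b (γ + Pi.single s 1 + Pi.single s' 1) (i + k) (j - k)))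
      = ∑ s, ∑ k ∈ range (j + 1), ∑ s',
          v s * v s' * F (pt a b (γ + Pi.single s 1 + Pi.single s' 1) (i + k) (j - k)) :=
        Finset.sum_congr rfl (fun s _ => Finset.sum_comm)
    _ = _ := Finset.sum_comm

theorem psiW_base {a b : ι} (hab : a ≠ b) (Φ : (ι → ℕ) → ℝ) (γ γ' : ι → ℕ)
    (h : ∀ c, c ≠ a → c ≠ b → γ c = γ' c) (i j : ℕ) : psiW a b Φ γ i j = psiW a b Φ γ' i j := by
  unfold psiW
  rw [pt_congr hab γ γ' h]

theorem psiL_base {a b : ι} (hab : a ≠ b) (Φ : (ι → ℕ) → ℝ) (γ γ' : ι → ℕ)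
    (h : ∀ c, c ≠ a → c ≠ b → γ c = γ' c) (v : ι → ℝ) (i j : ℕ) :
    psiL a b Φ γ v i j = psiL a b Φ γ' v i j := by
  unfold psiL
  refine Finset.sum_congr rfl (fun s _ => ?_)
  rw [pt_congr hab (γ + Pi.single s 1) (γ' + Pi.single s 1)
    (fun c hca hcb => by simp [h c hca hcb])]

theorem psiQ_base {a b : ι} (hab : a ≠ b) (Φ : (ι → ℕ) → ℝ) (γ γ' : ι → ℕ)
    (h : ∀ c, c ≠ a → c ≠ b → γ c = γ' c) (v : ι → ℝ) (i j : ℕ) :
    psiQ a b Φ γ v i j = psiQ a b Φ γ' v i j := by
  unfold psiQ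
  refine Finset.sum_congr rfl (fun s _ => Finset.sum_congr rfl (fun s' _ => ?_))
  rw [pt_congr hab (γ + Pi.single s 1 + Pi.single s' 1) (γ' + Pi.single s 1 + Pi.single s' 1)
    (fun c hca hcb => by simp [h c hca hcb])]

theorem psiL_smul (a b : ι) (Φ : (ι → ℕ) → ℝ) (γ : ι → ℕ) (v : ι → ℝ) (z : ℝ) (i j : ℕ) :
    psiL a b Φ γ (fun c => z * v c) i j = z * psiL a b Φ γ v i j := by
  unfold psiL
  rw [Finset.mul_sum]
  refine Finset.sum_congr rfl (fun s _ => ?_)
  ring

theorem psiQ_smul (a b : ι) (Φ : (ι → ℕ) → ℝ) (γ : ι → ℕ) (v : ι → ℝ) (z : ℝ) (i j : ℕ) :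
    psiQ a b Φ γ (fun c => z * v c) i j = z ^ 2 * psiQ a b Φ γ v i j := by
  unfold psiQ
  rw [Finset.mul_sum]
  refine Finset.sum_congr rfl (fun s _ => ?_)
  rw [Finset.mul_sum]
  refine Finset.sum_congr rfl (fun s' _ => ?_)
  ring

theorem add2_apply (γ : ι → ℕ) (s s' c : ι) :
    (γ + Pi.single s 1 + Pi.single s' 1 : ι → ℕ) c
      = γ c + (if c = s then 1 else 0) + (if c = s' then 1 else 0) := by
  simp [Pi.single_apply]

theorem hess_pt_aa {a b : ι} (hab : a ≠ b) (Φ : (ι → ℕ) → ℝ) (γ : ι → ℕ) :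
    hess Φ γ a a = psiW a b Φ γ (γ a + 2) (γ b) := by
  unfold hess psiW
  congr 1
  refine eq_pt hab _ _ _ _ ?_ ?_ ?_
  · rw [add2_apply]; simp
  · rw [add2_apply]; simp [hab.symm]
  · intro c hca hcb
    rw [add2_apply]; simp [hca]

theorem hess_pt_ab {a b : ι} (hab : a ≠ b) (Φ : (ι → ℕ) → ℝ) (γ : ι → ℕ) :
    hess Φ γ a b = psiW a b Φ γ (γ a + 1) (γ b + 1) := by
  unfold hess psiW
  congr 1
  refine eq_pt hab _ _ _ _ ?_ ?_ ?_
  · rw [add2_apply]; simp [hab]
  · rw [add2_apply]; simp [hab.symm]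
  · intro c hca hcb
    rw [add2_apply]; simp [hca, hcb]

theorem hess_pt_bb {a b : ι} (hab : a ≠ b) (Φ : (ι → ℕ) → ℝ) (γ : ι → ℕ) :
    hess Φ γ b b = psiW a b Φ γ (γ a) (γ b + 2) := by
  unfold hess psiW
  congr 1
  refine eq_pt hab _ _ _ _ ?_ ?_ ?_
  · rw [add2_apply]; simp [hab]
  · rw [add2_apply]; simp
  · intro c hca hcb
    rw [add2_apply]; simp [hcb]

theorem hess_pt_as {a b : ι} (hab : a ≠ b) (Φ : (ι → ℕ) → ℝ) (γ : ι → ℕ) (s : ι)
    (hsa : s ≠ a) (hsb : s ≠ b) :
    hess Φ γ a s = Φ (pt a b (γ + Pi.single s 1) (γ a + 1) (γ b)) := by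
  unfold hess
  congr 1
  refine eq_pt hab _ _ _ _ ?_ ?_ ?_
  · rw [add2_apply]; simp [hsa.symm]
  · rw [add2_apply]; simp [hab.symm, hsb.symm]
  · intro c hca hcb
    rw [add2_apply]; simp [hca, Pi.single_apply]

theorem hess_pt_bs {a b : ι} (hab : a ≠ b) (Φ : (ι → ℕ) → ℝ) (γ : ι → ℕ) (s : ι)
    (hsa : s ≠ a) (hsb : s ≠ b) :
    hess Φ γ b s = Φ (pt a b (γ + Pi.single s 1) (γ a) (γ b + 1)) := by
  unfold hess
  congr 1
  refine eq_pt hab _ _ _ _ ?_ ?_ ?_
  · rw [add2_apply]; simp [hab, hsa.symm]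
  · rw [add2_apply]; simp [hsb.symm]
  · intro c hca hcb
    rw [add2_apply]; simp [hcb, Pi.single_apply]

theorem hess_pt_ss {a b : ι} (hab : a ≠ b) (Φ : (ι → ℕ) → ℝ) (γ : ι → ℕ) (s s' : ι)
    (hsa : s ≠ a) (hsb : s ≠ b) (hsa' : s' ≠ a) (hsb' : s' ≠ b) :
    hess Φ γ s s' = Φ (pt a b (γ + Pi.single s 1 + Pi.single s' 1) (γ a) (γ b)) := by
  unfold hess
  congr 1
  refine eq_pt hab _ _ _ _ ?_ ?_ ?_
  · rw [add2_apply]; simp [hsa.symm, hsa'.symm]
  · rw [add2_apply]; simp [hsb.symm, hsb'.symm]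
  · intro c hca hcb
    rfl

/-- The second-difference matrix on the span of `e_a`, `e_b` and a spectator vector `v`. -/
theorem hess_expand {a b : ι} (hab : a ≠ b) (Φ : (ι → ℕ) → ℝ) (γ : ι → ℕ) (v : ι → ℝ)
    (hva : v a = 0) (hvb : v b = 0) (x y : ℝ) :
    bil (hess Φ γ) (ev a) (ev a) = psiW a b Φ γ (γ a + 2) (γ b) ∧
    bil (hess Φ γ) (ev a) (fun c => x * ev a c + y * ev b c + 1 * v c)
      = x * psiW a b Φ γ (γ a + 2) (γ b) + y * psiW a b Φ γ (γ a + 1) (γ b + 1)
        + psiL a b Φ γ v (γ a + 1) (γ b) ∧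
    bil (hess Φ γ) (fun c => x * ev a c + y * ev b c + 1 * v c)
        (fun c => x * ev a c + y * ev b c + 1 * v c)
      = x ^ 2 * psiW a b Φ γ (γ a + 2) (γ b) + 2 * x * y * psiW a b Φ γ (γ a + 1) (γ b + 1)
        + y ^ 2 * psiW a b Φ γ (γ a) (γ b + 2) + 2 * x * psiL a b Φ γ v (γ a + 1) (γ b)
        + 2 * y * psiL a b Φ γ v (γ a) (γ b + 1) + psiQ a b Φ γ v (γ a) (γ b) := by
  have hsym := hess_symm Φ γ
  have haa : bil (hess Φ γ) (ev a) (ev a) = psiW a b Φ γ (γ a + 2) (γ b) := by
    rw [bil_ev_ev]; exact hess_pt_aa hab Φ γ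
  have hab' : bil (hess Φ γ) (ev a) (ev b) = psiW a b Φ γ (γ a + 1) (γ b + 1) := by
    rw [bil_ev_ev]; exact hess_pt_ab hab Φ γ
  have hbb : bil (hess Φ γ) (ev b) (ev b) = psiW a b Φ γ (γ a) (γ b + 2) := by
    rw [bil_ev_ev]; exact hess_pt_bb hab Φ γ
  have hav : bil (hess Φ γ) (ev a) v = psiL a b Φ γ v (γ a + 1) (γ b) := by
    rw [bil_ev_left]
    unfold psiL
    refine Finset.sum_congr rfl (fun s _ => ?_)
    by_cases hs : s = a ∨ s = b
    · have h0 : v s = 0 := by
        rcases hs with h | h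
        · rw [h]; exact hva
        · rw [h]; exact hvb
      rw [h0]; simp
    · push Not at hs
      rw [hess_pt_as hab Φ γ s hs.1 hs.2]; ring
  have hbv : bil (hess Φ γ) (ev b) v = psiL a b Φ γ v (γ a) (γ b + 1) := by
    rw [bil_ev_left]
    unfold psiL
    refine Finset.sum_congr rfl (fun s _ => ?_)
    by_cases hs : s = a ∨ s = b
    · have h0 : v s = 0 := by
        rcases hs with h | h
        · rw [h]; exact hva
        · rw [h]; exact hvb
      rw [h0]; simp
    · push Not at hs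
      rw [hess_pt_bs hab Φ γ s hs.1 hs.2]; ring
  have hvv : bil (hess Φ γ) v v = psiQ a b Φ γ v (γ a) (γ b) := by
    unfold bil psiQ
    refine Finset.sum_congr rfl (fun s _ => Finset.sum_congr rfl (fun s' _ => ?_))
    by_cases hs : s = a ∨ s = b
    · have h0 : v s = 0 := by
        rcases hs with h | h
        · rw [h]; exact hva
        · rw [h]; exact hvb
      rw [h0]; simp
    · by_cases hs' : s' = a ∨ s' = b
      · have h0 : v s' = 0 := by
          rcases hs' with h | h
          · rw [h]; exact hva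
          · rw [h]; exact hvb
        rw [h0]; simp
      · push Not at hs hs'
        rw [hess_pt_ss hab Φ γ s s' hs.1 hs.2 hs'.1 hs'.2]; ring
  refine ⟨haa, ?_, ?_⟩
  · rw [bil_lin3_right, haa, hab', hav]; ring
  · rw [bil_lin3_left, bil_lin3_right, bil_lin3_right, bil_lin3_right,
      bil_symm hsym (ev b) (ev a), bil_symm hsym v (ev a), bil_symm hsym v (ev b),
      haa, hab', hbb, hav, hbv, hvv]
    ring

/-- A sequence on `ℤ` supported in `[0, M]`, read off a function of two natural numbers. -/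
def lineSeq (M : ℕ) (Ψ : ℕ → ℕ → ℝ) : ℤ → ℝ :=
  fun ρ => if 0 ≤ ρ ∧ ρ ≤ (M : ℤ) then Ψ (M - ρ.toNat) ρ.toNat else 0

theorem lineSeq_nat (M : ℕ) (Ψ : ℕ → ℕ → ℝ) (n : ℕ) (hn : n ≤ M) :
    lineSeq M Ψ (n : ℤ) = Ψ (M - n) n := by
  unfold lineSeq
  rw [if_pos ⟨Int.natCast_nonneg n, by exact_mod_cast hn⟩, Int.toNat_natCast]

theorem lineSeq_out (M : ℕ) (Ψ : ℕ → ℕ → ℝ) (ρ : ℤ) (h : ρ < 0 ∨ (M : ℤ) < ρ) :
    lineSeq M Ψ ρ = 0 := by
  unfold lineSeq
  rw [if_neg]
  rintro ⟨h1, h2⟩
  rcases h with h | h <;> omega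

theorem lineSeq_window (M : ℕ) (Ψ : ℕ → ℕ → ℝ) (j C : ℕ) (hj : j ≤ M) (hC : j ≤ C) :
    ∑ k ∈ range (C + 1), lineSeq M Ψ ((j : ℤ) - (k : ℤ))
      = ∑ k ∈ range (j + 1), Ψ (M - j + k) (j - k) := by
  have hsub : range (j + 1) ⊆ range (C + 1) := Finset.range_subset_range.mpr (by omega)
  rw [← Finset.sum_subset hsub]
  · refine Finset.sum_congr rfl (fun k hk => ?_)
    have hk' : k ≤ j := by
      have := Finset.mem_range.mp hk
      omega
    have hc : ((j : ℤ) - (k : ℤ)) = ((j - k : ℕ) : ℤ) := by omega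
    have hi : M - (j - k) = M - j + k := by omega
    rw [hc, lineSeq_nat _ _ _ (by omega), hi]
  · intro k _ hk
    have hk' : j < k := by
      by_contra hcon
      exact hk (Finset.mem_range.mpr (by omega))
    exact lineSeq_out _ _ _ (Or.inl (by omega))

/-- The three sequences along a line in direction `e_b - e_a` satisfy `Lor`. -/
theorem lor_line {a b : ι} (hab : a ≠ b) (F : (ι → ℕ) → ℝ) (hF : LorF F) (γ : ι → ℕ)
    (v : ι → ℝ) (hva : v a = 0) (hvb : v b = 0) :
    Lor (γ a + γ b + 2) (lineSeq (γ a + γ b + 2) (psiW a b F γ))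
      (lineSeq (γ a + γ b + 1) (psiL a b F γ v)) (lineSeq (γ a + γ b) (psiQ a b F γ v)) := by
  obtain ⟨hpos, hone⟩ := hF
  generalize hg : γ a + γ b = g
  refine ⟨?_, ?_, ?_, ?_, ?_⟩
  · intro ρ h0 hm
    lift ρ to ℕ using h0 with n
    rw [lineSeq_nat _ _ _ (by exact_mod_cast hm)]
    exact hpos _
  · intro ρ h
    exact lineSeq_out _ _ _ h
  · intro ρ h
    refine lineSeq_out _ _ _ ?_
    rcases h with h | h
    · exact Or.inl h
    · right; push_cast at h ⊢; omega
  · intro ρ h
    refine lineSeq_out _ _ _ ?_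
    rcases h with h | h
    · exact Or.inl h
    · right; push_cast at h ⊢; omega
  · intro ρ h0 hm y z
    lift ρ to ℕ using h0 with n
    have hn : n ≤ g + 2 := by exact_mod_cast hm
    have c1 : ((n : ℤ) + 1) = ((n + 1 : ℕ) : ℤ) := by push_cast; ring
    have c2 : ((n : ℤ) + 2) = ((n + 2 : ℕ) : ℤ) := by push_cast; ring
    rw [c1, c2]
    rcases Nat.lt_or_ge g n with hgn | hgn
    · rcases (by omega : n = g + 1 ∨ n = g + 2) with rfl | rfl
      · rw [lineSeq_out (g + 2) _ ((g + 1 + 2 : ℕ) : ℤ) (Or.inr (by push_cast; omega)),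
          lineSeq_out (g + 1) _ ((g + 1 + 1 : ℕ) : ℤ) (Or.inr (by push_cast; omega)),
          lineSeq_out g _ ((g + 1 : ℕ) : ℤ) (Or.inr (by push_cast; omega))]
        nlinarith [sq_nonneg (lineSeq (g + 2) (psiW a b F γ) ((g + 1 + 1 : ℕ) : ℤ) * y
          + lineSeq (g + 1) (psiL a b F γ v) ((g + 1 : ℕ) : ℤ) * z)]
      · rw [lineSeq_out (g + 2) _ ((g + 2 + 1 : ℕ) : ℤ) (Or.inr (by push_cast; omega)),
          lineSeq_out (g + 2) _ ((g + 2 + 2 : ℕ) : ℤ) (Or.inr (by push_cast; omega)),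
          lineSeq_out (g + 1) _ ((g + 2 : ℕ) : ℤ) (Or.inr (by push_cast; omega)),
          lineSeq_out (g + 1) _ ((g + 2 + 1 : ℕ) : ℤ) (Or.inr (by push_cast; omega)),
          lineSeq_out g _ ((g + 2 : ℕ) : ℤ) (Or.inr (by push_cast; omega))]
        simp
    · rw [lineSeq_nat _ _ n (by omega), lineSeq_nat _ _ (n + 1) (by omega),
        lineSeq_nat _ _ (n + 2) (by omega), lineSeq_nat (g + 1) _ n (by omega),
        lineSeq_nat (g + 1) _ (n + 1) (by omega), lineSeq_nat g _ n hgn]
      have hγna : pt a b γ (g - n) n a = g - n := pt_a a b γ _ _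
      have hγnb : pt a b γ (g - n) n b = n := pt_b hab γ _ _
      have hbase : ∀ c, c ≠ a → c ≠ b → pt a b γ (g - n) n c = γ c :=
        fun c hca hcb => pt_of_ne a b γ _ _ c hca hcb
      obtain ⟨e1, e2, e3⟩ := hess_expand hab F (pt a b γ (g - n) n) (fun c => z * v c)
        (by simp [hva]) (by simp [hvb]) 0 y
      have hr := hone (pt a b γ (g - n) n) (ev a)
        (fun c => 0 * ev a c + y * ev b c + 1 * (z * v c)) (by rw [e1]; exact hpos _)
      rw [e1, e2, e3] at hr
      simp only [psiL_smul, psiQ_smul, hγna, hγnb, psiW_base hab F _ γ hbase,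
        psiL_base hab F _ γ hbase, psiQ_base hab F _ γ hbase] at hr
      have i1 : g + 2 - n = g - n + 2 := by omega
      have i2 : g + 2 - (n + 1) = g - n + 1 := by omega
      have i3 : g + 2 - (n + 2) = g - n := by omega
      have i4 : g + 1 - n = g - n + 1 := by omega
      have i5 : g + 1 - (n + 1) = g - n := by omega
      rw [i1, i2, i3, i4, i5]
      nlinarith [hr]

/-- **Transfer step.**  `LorF` is preserved by prefix sums along a line `e_b - e_a`. -/
theorem lorF_transfer (a b : ι) (hab : a ≠ b) (F : (ι → ℕ) → ℝ) (hF : LorF F) :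
    LorF (transfer a b F) := by
  have hpos := hF.1
  have hGpos : ∀ p, 0 < transfer a b F p := by
    intro p
    unfold transfer
    exact Finset.sum_pos (fun k _ => hpos _) ⟨0, Finset.mem_range.mpr (Nat.succ_pos _)⟩
  refine ⟨hGpos, fun γ => ?_⟩
  refine onePos_of_rcs (hess_symm _ _) (ev a) ?_ ?_
  · rw [bil_ev_ev]; exact hGpos _
  · intro u
    have hva : (fun c => if c = a ∨ c = b then (0 : ℝ) else u c) a = 0 := by simp
    have hvb : (fun c => if c = a ∨ c = b then (0 : ℝ) else u c) b = 0 := by simp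
    generalize hv : (fun c => if c = a ∨ c = b then (0 : ℝ) else u c) = v at hva hvb
    have hu : u = fun c => u a * ev a c + u b * ev b c + 1 * v c := by
      funext c
      rw [← hv]
      by_cases hca : c = a
      · subst hca; simp [ev, hab]
      · by_cases hcb : c = b
        · subst hcb; simp [ev, hca]
        · simp [ev, hca, hcb]
    obtain ⟨e1, e2, e3⟩ := hess_expand hab (transfer a b F) γ v hva hvb (u a) (u b)
    rw [← hu] at e2 e3
    rw [e1, e2, e3]
    have hLor := lor_line hab F hF γ v hva hvb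
    have hstep := Lor_step hLor (γ a + γ b + 2) 0
    have hmain := hstep.2.2.2.2 (γ b : ℤ) (Int.natCast_nonneg _) (by push_cast; omega) (u b) 1
    have c1 : ((γ b : ℤ) + 1) = ((γ b + 1 : ℕ) : ℤ) := by push_cast; ring
    have c2 : ((γ b : ℤ) + 2) = ((γ b + 2 : ℕ) : ℤ) := by push_cast; ring
    have W0 : addW (γ a + γ b + 2) (lineSeq (γ a + γ b + 2) (psiW a b F γ)) (γ b : ℤ)
        = psiW a b (transfer a b F) γ (γ a + 2) (γ b) := by
      rw [psiW_transfer hab]
      unfold addW
      rw [lineSeq_window _ _ _ _ (by omega) (by omega)]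
      refine Finset.sum_congr rfl (fun k _ => ?_)
      have : γ a + γ b + 2 - γ b + k = γ a + 2 + k := by omega
      rw [this]
    have W1 : addW (γ a + γ b + 2) (lineSeq (γ a + γ b + 2) (psiW a b F γ)) ((γ b : ℤ) + 1)
        = psiW a b (transfer a b F) γ (γ a + 1) (γ b + 1) := by
      rw [c1, psiW_transfer hab]
      unfold addW
      rw [lineSeq_window _ _ _ _ (by omega) (by omega)]
      refine Finset.sum_congr rfl (fun k _ => ?_)
      have : γ a + γ b + 2 - (γ b + 1) + k = γ a + 1 + k := by omega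
      rw [this]
    have W2 : addW (γ a + γ b + 2) (lineSeq (γ a + γ b + 2) (psiW a b F γ)) ((γ b : ℤ) + 2)
        = psiW a b (transfer a b F) γ (γ a) (γ b + 2) := by
      rw [c2, psiW_transfer hab]
      unfold addW
      rw [lineSeq_window _ _ _ _ (by omega) (by omega)]
      refine Finset.sum_congr rfl (fun k _ => ?_)
      have : γ a + γ b + 2 - (γ b + 2) + k = γ a + k := by omega
      rw [this]
    have L0 : addL (γ a + γ b + 2) 0 (lineSeq (γ a + γ b + 2) (psiW a b F γ))
          (lineSeq (γ a + γ b + 1) (psiL a b F γ v)) (γ b : ℤ)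
        = psiL a b (transfer a b F) γ v (γ a + 1) (γ b) := by
      rw [psiL_transfer hab]
      unfold addL
      rw [zero_mul, add_zero, lineSeq_window _ _ _ _ (by omega) (by omega)]
      refine Finset.sum_congr rfl (fun k _ => ?_)
      have : γ a + γ b + 1 - γ b + k = γ a + 1 + k := by omega
      rw [this]
    have L1 : addL (γ a + γ b + 2) 0 (lineSeq (γ a + γ b + 2) (psiW a b F γ))
          (lineSeq (γ a + γ b + 1) (psiL a b F γ v)) ((γ b : ℤ) + 1)
        = psiL a b (transfer a b F) γ v (γ a) (γ b + 1) := by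
      rw [c1, psiL_transfer hab]
      unfold addL
      rw [zero_mul, add_zero, lineSeq_window _ _ _ _ (by omega) (by omega)]
      refine Finset.sum_congr rfl (fun k _ => ?_)
      have : γ a + γ b + 1 - (γ b + 1) + k = γ a + k := by omega
      rw [this]
    have Q0 : addQ (γ a + γ b + 2) 0 (lineSeq (γ a + γ b + 2) (psiW a b F γ))
          (lineSeq (γ a + γ b + 1) (psiL a b F γ v)) (lineSeq (γ a + γ b) (psiQ a b F γ v))
          (γ b : ℤ)
        = psiQ a b (transfer a b F) γ v (γ a) (γ b) := by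
      rw [psiQ_transfer hab]
      unfold addQ
      rw [mul_zero, zero_mul, add_zero, zero_pow (by norm_num), zero_mul, add_zero,
        lineSeq_window _ _ _ _ (by omega) (by omega)]
      refine Finset.sum_congr rfl (fun k _ => ?_)
      have : γ a + γ b - γ b + k = γ a + k := by omega
      rw [this]
    rw [W0, W1, W2, L0, L1, Q0] at hmain
    nlinarith [hmain]

end Vale.Agent.Lib.P328.NCq
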